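import Vale.Agent.P004G.H253.SW5
import Vale.Agent.P004G.H392.ML1
import Vale.Agent.P004G.H392.ML2
import Vale.Agent.P004G.H871.MLS2
import Vale.Agent.P004G.H575.Ent

/-!
# P004G: the curves `y² = x³ + B`, everything unconditional
-/

namespace P004G
namespace SX

open ML

theorem stMLS : StMLS :=
  P004G.MS.pfMLS P004G.ML.M1.pfLocGood P004G.ML.M1.pfLocAdd P004G.ML.M2.pfLoc P004G.ML.M2.pfEul

/-- **the parity half for `y² = x³ + B`, unconditional** -/
theorem oddHalf_S {B : ℤ} (hB : B ≠ 0) : OddHalf 0 B :=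
  oddHalfS' stMLS pfLent pfLparity hB

/-- **Hasse bound and functional equations of all twists of `y² = x³ + B`, unconditional** -/
theorem modl_S {B : ℤ} (hB : B ≠ 0) : Modl 0 B := modlS' stMLS hB

end SX
end P004G
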