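import Vale.Agent.P004G.H253.SW4
import Vale.Agent.P004.H628.QM

/-!
# P004G: Hasse's bound and the functional equations for the twists of `y² = x³ + B`
-/

open Real Finset

namespace P004G
namespace SX

open ML
open P004.QN (fund1_ne fund1_sq fet_of)

lemma RS_le {B D : ℤ} (hB : B ≠ 0) (hD : D ≠ 0) : (RS (B * D ^ 3) : ℝ) ≤ |(B : ℝ)| * |(D : ℝ)| := by
  have h1 : RS (B * D ^ 3) ∣ (B * D).natAbs := by
    rw [RS_eq]
    apply Finset.prod_primes_dvd
    · intro q hq
      exact (mem_SS hq).1.prime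
    · intro q hq
      unfold SS at hq
      rw [mem_filter, Nat.mem_primeFactors] at hq
      have hp := hq.1.1
      have h2 := hq.1.2.1
      rw [Int.natAbs_mul, Int.natAbs_pow] at h2
      rw [Int.natAbs_mul]
      rcases (Nat.Prime.dvd_mul hp).1 h2 with h3 | h3
      · exact Dvd.dvd.mul_right h3 _
      · exact Dvd.dvd.mul_left (hp.dvd_of_dvd_pow h3) _
  have h2 : RS (B * D ^ 3) ≤ (B * D).natAbs :=
    Nat.le_of_dvd (Nat.pos_of_ne_zero (Int.natAbs_ne_zero.2 (mul_ne_zero hB hD))) h1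
  rw [← abs_mul]
  have h3 : |(B : ℝ) * (D : ℝ)| = ((B * D).natAbs : ℝ) := by
    rw [← Int.cast_mul, ← Int.cast_abs, Nat.cast_natAbs]
  rw [h3]
  exact_mod_cast h2

lemma le_RS {B D : ℤ} (hB : B ≠ 0) (hD : Fund1 D) :
    |(D : ℝ)| ≤ 24 * |(B : ℝ)| * (RS (B * D ^ 3) : ℝ) := by
  obtain ⟨m, hm, hDm, hmD⟩ := fund1_sq hD
  have hD0 := fund1_ne hD
  have hm0 : m ≠ 0 := hm.ne_zero
  have hR0 := RS_ne_zero (B * D ^ 3)
  have hB' : B * D ^ 3 ≠ 0 := mul_ne_zero hB (pow_ne_zero 3 hD0)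
  have hmn := Int.squarefree_natAbs.2 hm
  have h1 : m.natAbs ∣ 2 * 3 * B.natAbs * RS (B * D ^ 3) := by
    rw [← Nat.prod_primeFactors_of_squarefree hmn]
    apply Finset.prod_primes_dvd
    · intro q hq
      exact (Nat.prime_of_mem_primeFactors hq).prime
    · intro q hq
      have hp := Nat.prime_of_mem_primeFactors hq
      have hqm := Nat.dvd_of_mem_primeFactors hq
      have : Fact q.Prime := ⟨hp⟩
      by_cases h2 : q = 2
      · rw [h2, mul_assoc, mul_assoc]; exact Dvd.intro _ rfl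
      by_cases h3 : q = 3
      · rw [h3, mul_comm 2 3, mul_assoc, mul_assoc]; exact Dvd.intro _ rfl
      by_cases h4 : q ∣ B.natAbs
      · exact Dvd.dvd.mul_right (Dvd.dvd.mul_left h4 _) _
      · apply Dvd.dvd.mul_left
        rw [RS_eq]
        apply dvd_prod_of_mem (fun q : ℕ => q)
        have hqD : (q : ℤ) ∣ D := (Int.natCast_dvd.2 hqm).trans hmD
        unfold SS
        rw [mem_filter, Nat.mem_primeFactors]
        refine ⟨⟨hp, ?_, Int.natAbs_ne_zero.2 hB'⟩, ?_, ?_⟩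
        · rw [← Int.natCast_dvd]
          exact Dvd.dvd.mul_left (dvd_pow hqD three_ne_zero) _
        · have h5 := hp.two_le
          have h6 : q ≠ 4 := by rintro rfl; exact absurd hp (by norm_num)
          omega
        · have hv1 : padicValInt q B = 0 :=
            padicValInt.eq_zero_of_not_dvd (fun h => h4 (Int.natCast_dvd.1 h))
          have hvm : padicValInt q D = 1 := by
            have h5 : padicValInt q m = 1 := by
              have h6 : padicValInt q m = m.natAbs.factorization q := by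
                rw [Nat.factorization_def _ hp]; rfl
              have h7 := (Nat.squarefree_iff_factorization_le_one
                (Int.natAbs_ne_zero.2 hm0)).1 hmn q
              have h8 : 0 < m.natAbs.factorization q :=
                hp.factorization_pos_of_dvd (Int.natAbs_ne_zero.2 hm0) hqm
              omega
            obtain ⟨r, hr⟩ := hmD
            obtain ⟨s, hs⟩ := hDm
            have hr0 : r ≠ 0 := by rintro rfl; rw [mul_zero] at hr; exact hD0 hr
            have h9 : r * s = 4 := by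
              have : m * (r * s) = m * 4 := by rw [← mul_assoc, ← hr, ← hs]; ring
              exact mul_left_cancel₀ hm0 this
            have hqr : ¬ (q : ℤ) ∣ r := by
              intro h
              have h10 : (q : ℤ) ∣ 4 := h9 ▸ Dvd.dvd.mul_right h s
              have h11 : q ∣ 2 ^ 2 := by
                have := Int.natCast_dvd.1 h10
                simpa using this
              exact h2 ((Nat.prime_dvd_prime_iff_eq hp Nat.prime_two).1 (hp.dvd_of_dvd_pow h11))
            rw [hr, padicValInt.mul hm0 hr0, h5, padicValInt.eq_zero_of_not_dvd hqr]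
          have h10 : padicValInt q (D ^ 3) = 3 := by
            unfold padicValInt at hvm ⊢
            rw [Int.natAbs_pow, padicValNat.pow, hvm]
          rw [padicValInt.mul hB (pow_ne_zero 3 hD0), h10, hv1]
          norm_num
  have h2 : D.natAbs ∣ 4 * m.natAbs := by
    have := Int.natAbs_dvd_natAbs.2 hDm
    rwa [Int.natAbs_mul] at this
  have h3 : D.natAbs ≤ 4 * (2 * 3 * B.natAbs * RS (B * D ^ 3)) := by
    have h4 : 4 * m.natAbs ∣ 4 * (2 * 3 * B.natAbs * RS (B * D ^ 3)) := mul_dvd_mul_left 4 h1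
    apply Nat.le_of_dvd _ (h2.trans h4)
    have := Nat.pos_of_ne_zero (Int.natAbs_ne_zero.2 hB)
    have := Nat.pos_of_ne_zero hR0
    positivity
  have e1 : |(D : ℝ)| = (D.natAbs : ℝ) := by
    rw [← Int.cast_abs, Nat.cast_natAbs]
  have e2 : |(B : ℝ)| = (B.natAbs : ℝ) := by
    rw [← Int.cast_abs, Nat.cast_natAbs]
  rw [e1, e2]
  have h5 : (D.natAbs : ℝ) ≤ ((4 * (2 * 3 * B.natAbs * RS (B * D ^ 3)) : ℕ) : ℝ) := by
    exact_mod_cast h3
  refine h5.trans (le_of_eq ?_)
  push_cast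
  ring

/-- **Hasse's bound and the functional equations for the twists of `y² = x³ + B`** -/
theorem modlS (hS : StS) (hMLS : StMLS) {B : ℤ} (hB : B ≠ 0) : Modl 0 B := by
  obtain ⟨C, hC, hfeq⟩ := hS
  have hB' : ∀ D : ℤ, Fund1 D → B * D ^ 3 ≠ 0 := fun D hD =>
    mul_ne_zero hB (pow_ne_zero 3 (fund1_ne hD))
  have hid : ∀ D : ℤ, Fund1 D → ∀ A : ℕ → ℤ, CoefS (B * D ^ 3) A →
      ∀ n, A n = LA (0 * D ^ 2) (B * D ^ 3) n := by
    intro D hD A hA n
    rw [hMLS _ (hB' D hD) _ hA n, zero_mul]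
  have hC0 : 0 < C := by linarith
  have hB1 : (1 : ℝ) ≤ |(B : ℝ)| := by
    have : 1 ≤ |B| := Int.one_le_abs hB
    exact_mod_cast this
  have hB2 : (1 : ℝ) ≤ (B : ℝ) ^ 2 := by
    rw [← sq_abs]
    exact one_le_pow₀ hB1
  refine ⟨?_, 576 * C ^ 2 * (B : ℝ) ^ 2, ?_, ?_⟩
  · intro D hD p hp
    rw [← hid D hD _ (coefS (hB' D hD)) p]
    rcases (coefS (hB' D hD)).ld.loc p hp with ⟨-, h⟩ | ⟨-, h⟩
    · exact h
    · have h1 : (AS (B * D ^ 3) p) ^ 2 ≤ 1 := by
        rw [← sq_abs]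
        have := abs_nonneg (AS (B * D ^ 3) p)
        nlinarith
      have h2 : (1 : ℤ) ≤ p := by exact_mod_cast hp.one_lt.le
      linarith
  · have : 1 ≤ C ^ 2 := one_le_pow₀ hC
    nlinarith
  · intro D hD
    obtain ⟨A, q, κ, hco, hfe, h1, h2⟩ := hfeq _ (hB' D hD)
    have hq := hfe.1
    have hD0 := fund1_ne hD
    have hs : √q ^ 2 = q := Real.sq_sqrt hq.le
    have hR0 : (0 : ℝ) ≤ (RS (B * D ^ 3) : ℝ) := Nat.cast_nonneg _
    have hBa : 0 < |(B : ℝ)| := by linarith
    have hDa : 0 ≤ |(D : ℝ)| := abs_nonneg _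
    refine ⟨4 * q, κ, by positivity, hfe.2.1, ?_, ?_, fet_of (hid D hD A hco) hfe⟩
    · rw [div_le_iff₀ (by positivity)]
      have h3 := le_RS hB hD
      rw [div_le_iff₀ hC0] at h1
      have h4 : |(D : ℝ)| ≤ 24 * |(B : ℝ)| * (√q * C) :=
        h3.trans (mul_le_mul_of_nonneg_left h1 (by positivity))
      have h5 : |(D : ℝ)| ^ 2 ≤ (24 * |(B : ℝ)| * (√q * C)) ^ 2 := pow_le_pow_left₀ hDa h4 2
      rw [sq_abs, mul_pow, mul_pow, mul_pow, sq_abs, hs] at h5
      have h6 : 0 ≤ (B : ℝ) ^ 2 * (q * C ^ 2) := by positivity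
      nlinarith
    · have h3 := RS_le hB hD0
      have h4 : √q ≤ C * (|(B : ℝ)| * |(D : ℝ)|) :=
        h2.trans (mul_le_mul_of_nonneg_left h3 hC0.le)
      have h5 : √q ^ 2 ≤ (C * (|(B : ℝ)| * |(D : ℝ)|)) ^ 2 :=
        pow_le_pow_left₀ (Real.sqrt_nonneg _) h4 2
      rw [hs, mul_pow, mul_pow, sq_abs, sq_abs] at h5
      have h6 : 0 ≤ C ^ 2 * ((B : ℝ) ^ 2 * (D : ℝ) ^ 2) := by positivity
      nlinarith

end SX
end P004G
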