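import Vale.Agent.P004G.H253.SW1
import Vale.Agent.P004.H628.QW4

/-!
# P004G: one half of the twists of `y² = x³ + B` has odd analytic rank
-/

open Finset
open Vale.Agent.P006 (O om N sym Primary isUnit_iff_N N_mul_star N_mul N_pow N_star N_one
  sym_ne_zero sym_periodic star_intCast)
open P004.QN (cop_mul)

namespace P004G
namespace SX

open ML
open P004 (IsFund Fam)
open P004.QN (TwSign sfk oddHalf_of rank_parity kappa_unique)

section sixtyfour

variable {B : ℤ}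

lemma padic_64_two (hB : B ≠ 0) : padicValInt 2 (64 * B) = padicValInt 2 B + 6 := by
  have h2 : Fact (Nat.Prime 2) := ⟨Nat.prime_two⟩
  rw [padicValInt.mul (by norm_num) hB, add_comm]
  congr 1
  have : (64 : ℤ) = ((2 ^ 6 : ℕ) : ℤ) := by norm_num
  rw [this, padicValInt.of_nat]
  exact padicValNat.prime_pow 6

lemma padic_64_odd (hB : B ≠ 0) {q : ℕ} (hq : q.Prime) (hq2 : q ≠ 2) :
    padicValInt q (64 * B) = padicValInt q B := by
  have : Fact q.Prime := ⟨hq⟩
  rw [padicValInt.mul (by norm_num) hB]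
  have h16 : (64 : ℤ) = ((64 : ℕ) : ℤ) := by norm_num
  have h0 : padicValInt q 64 = 0 := by
    rw [h16, padicValInt.of_nat]
    apply padicValNat.eq_zero_of_not_dvd
    intro h
    have h3 : q ∣ 2 ^ 6 := by norm_num; exact h
    have := (Nat.prime_dvd_prime_iff_eq hq Nat.prime_two).1 (hq.dvd_of_dvd_pow h3)
    exact hq2 this
  rw [h0, zero_add]

lemma cop_two_64 (hB : B ≠ 0) : cop (64 * B) 2 = cop B 2 := by
  unfold cop
  rw [padic_64_two hB]
  obtain ⟨c, hc⟩ : ∃ c, B = ((2 : ℕ) : ℤ) ^ padicValInt 2 B * c := ⟨_, (cop_mul B 2).symm⟩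
  set v := padicValInt 2 B
  rw [hc]
  have h2 : (((2 : ℕ) : ℤ) ^ v) ≠ 0 := by positivity
  have h4 : (((2 : ℕ) : ℤ) ^ (v + 6)) ≠ 0 := by positivity
  have e1 : 64 * (((2 : ℕ) : ℤ) ^ v * c) = ((2 : ℕ) : ℤ) ^ (v + 6) * c := by
    rw [pow_add]; push_cast; ring
  rw [e1, Int.mul_ediv_cancel_left _ h4, Int.mul_ediv_cancel_left _ h2]

lemma SS_64 (hB : B ≠ 0) : SS (64 * B) = SS B := by
  unfold SS
  ext q
  rw [mem_filter, mem_filter, Nat.mem_primeFactors, Nat.mem_primeFactors, Int.natAbs_mul]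
  constructor
  · rintro ⟨⟨h1, h2, -⟩, h3, h4⟩
    rw [padic_64_odd hB h1 (by omega)] at h4
    refine ⟨⟨h1, ?_, Int.natAbs_ne_zero.2 hB⟩, h3, h4⟩
    rcases (Nat.Prime.dvd_mul h1).1 h2 with h5 | h5
    · exfalso
      have h6 : q ∣ 2 ^ 6 := by simpa using h5
      have := (Nat.prime_dvd_prime_iff_eq h1 Nat.prime_two).1 (h1.dvd_of_dvd_pow h6)
      omega
    · exact h5
  · rintro ⟨⟨h1, h2, -⟩, h3, h4⟩
    rw [padic_64_odd hB h1 (by omega)]
    refine ⟨⟨h1, Dvd.dvd.mul_left h2 _, ?_⟩, h3, h4⟩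
    exact Nat.mul_ne_zero (by norm_num) (Int.natAbs_ne_zero.2 hB)

lemma good2_64 (hB : B ≠ 0) : good2 (64 * B) ↔ good2 B := by
  unfold good2
  rw [padic_64_two hB, cop_two_64 hB]
  omega

lemma T2_64 (hB : B ≠ 0) (z : O) : T2 (64 * B) z = T2 B z := by
  by_cases h : good2 B
  · unfold T2
    rw [if_pos h, if_pos ((good2_64 hB).2 h)]
  · have h' : ¬ good2 (64 * B) := fun h1 => h ((good2_64 hB).1 h1)
    by_cases hz : (N z) % 2 = 1
    · unfold T2
      rw [if_neg h, if_neg h']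
      unfold e4
      rw [padic_64_two hB, cop_two_64 hB]
      have h8 : ((ZMod.χ₈ (N z : ZMod 8) : ℤ) : O) ^ 6 = 1 := by
        have h9 : ZMod.χ₈ (N z : ZMod 8) ≠ 0 := by
          rw [ZMod.χ₈_nat_eq_if_mod_eight]
          split_ifs <;> omega
        rcases chi8_cases (N z : ZMod 8) with h | h | h
        · exact absurd h h9
        · rw [h]; norm_num
        · rw [h]; norm_num
      have h9 : sym z 2 ^ 6 = 1 := by
        apply (isU_sym _ _).pow_six
        rw [sym_ne_zero]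
        apply coprime_of_N
        have : N (2 : O) = 2 ^ 2 := by decide
        rw [this]
        exact (Nat.coprime_two_right.2 (Nat.odd_iff.2 hz)).pow_right 2
      rw [pow_add _ (padicValInt 2 B) 6, h8, mul_one,
        show padicValInt 2 B + 6 + 2 = (padicValInt 2 B + 2) + 6 by ring,
        pow_add _ (padicValInt 2 B + 2) 6, h9, mul_one]
    · have e1 : T2 B z = 0 := by
        rw [T2_eq_zero_iff]
        unfold b2
        rw [if_neg h, Nat.coprime_two_right, Nat.odd_iff]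
        exact hz
      have e2 : T2 (64 * B) z = 0 := by
        rw [T2_eq_zero_iff]
        unfold b2
        rw [if_neg h', Nat.coprime_two_right, Nat.odd_iff]
        exact hz
      rw [e1, e2]

lemma X_64 (hB : B ≠ 0) (z : O) : X (64 * B) z = X B z := by
  unfold X
  rw [T2_64 hB, SS_64 hB, padic_64_odd hB Nat.prime_three (by norm_num)]
  congr 1
  apply prod_congr rfl
  intro q hq
  rw [padic_64_odd hB (mem_SS hq).1 (by have := (mem_SS hq).2.1; omega)]

lemma AS_64 (hB : B ≠ 0) : AS (64 * B) = AS B := by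
  funext n
  unfold AS Phi
  congr 1
  apply sum_congr rfl
  intro z _
  rw [X_64 hB]

end sixtyfour

/-- the root numbers of the twists of `y² = x³ + B` -/
def RootTw : Prop := ∀ B : ℤ, B ≠ 0 → ∃ (κ : ℝ) (M : ℕ), (κ = 1 ∨ κ = -1) ∧ 0 < M ∧
    ∀ k : ℕ, Squarefree k → k.Coprime 6 → k.Coprime B.natAbs →
      ∃ q : ℝ, FEq (AS (B * kst k ^ 3)) q (κ * ((jacobiSym (-(M : ℤ)) k : ℤ) : ℝ))

/-- the functional equation of `y² = x³ + B` -/
def FeqS : Prop := ∀ B : ℤ, B ≠ 0 → ∃ (q κ : ℝ), FEq (AS B) q κ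

open scoped Classical in
/-- the root number of `y² = x³ + B m³` -/
noncomputable def rootS (B m : ℤ) : ℤ := if ∃ q : ℝ, FEq (AS (B * m ^ 3)) q 1 then 1 else -1

lemma rootS_eq (hEnt : StLent) (hPar : StLparity) {B m : ℤ} (hB : B ≠ 0) (hm : m ≠ 0) {q κ : ℝ}
    (h : FEq (AS (B * m ^ 3)) q κ) : ((rootS B m : ℤ) : ℝ) = κ := by
  have hLD : LD (AS (B * m ^ 3)) := (coefS (mul_ne_zero hB (pow_ne_zero 3 hm))).ld
  unfold rootS
  rcases h.2.1 with h1 | h1
  · rw [if_pos ⟨q, by rw [← h1]; exact h⟩, h1]; norm_num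
  · rw [if_neg, h1]
    · norm_num
    · rintro ⟨q', h'⟩
      have := kappa_unique hEnt hPar hLD h h'
      rw [h1] at this
      norm_num at this

lemma kst_eq {n : ℤ} (h4 : n % 4 = 1) : kst n.natAbs = n := by
  unfold kst
  rcases le_total 0 n with h | h
  · rw [ZMod.χ₄_nat_one_mod_four (by omega)]; omega
  · rw [ZMod.χ₄_nat_three_mod_four (by omega)]; omega

lemma jac_sign' {M : ℕ} {n : ℤ} (h4 : n % 4 = 1) :
    jacobiSym (-(M : ℤ)) n.natAbs = n.sign * jacobiSym (M : ℤ) n.natAbs := by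
  have hodd : Odd n.natAbs := by rw [Nat.odd_iff]; omega
  rw [jacobiSym.neg _ hodd]
  congr 1
  rcases le_total 0 n with h | h
  · rw [Int.sign_eq_one_of_pos (by omega), ZMod.χ₄_nat_one_mod_four (by omega)]
  · rw [Int.sign_eq_neg_one_of_neg (by omega), ZMod.χ₄_nat_three_mod_four (by omega)]

theorem twSignS (hRT : RootTw) (hEnt : StLent) (hPar : StLparity) {B : ℤ} (hB : B ≠ 0) :
    TwSign (rootS B) (6 * B.natAbs) := by
  intro d hd hdP
  have hd0 : d ≠ 0 := hd.ne_zero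
  have hB' : B * d ^ 3 ≠ 0 := mul_ne_zero hB (pow_ne_zero 3 hd0)
  obtain ⟨κ, M, hκ, hM, htw⟩ := hRT _ hB'
  have hε : ∃ ε : ℤ, |ε| ≤ 1 ∧ (ε : ℝ) = κ := by
    rcases hκ with h | h
    · exact ⟨1, by norm_num, by rw [h]; norm_num⟩
    · exact ⟨-1, by norm_num, by rw [h]; norm_num⟩
  obtain ⟨ε, hε1, hε2⟩ := hε
  refine ⟨ε, M, hε1, hM.ne', fun n hn hn4 hnc => ?_⟩
  have hn0 : n ≠ 0 := hn.ne_zero
  have hdP' : d.natAbs ∣ 6 * B.natAbs := Int.natAbs_dvd_natAbs.2 hdP
  have h6 : n.natAbs.Coprime 6 := hnc.coprime_dvd_right (dvd_mul_right _ _)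
  have hnB : n.natAbs.Coprime B.natAbs := hnc.coprime_dvd_right (dvd_mul_left _ _)
  have hnd : n.natAbs.Coprime d.natAbs := hnc.coprime_dvd_right hdP'
  have hnBd : n.natAbs.Coprime (B * d ^ 3).natAbs := by
    rw [Int.natAbs_mul, Int.natAbs_pow]
    exact Nat.Coprime.mul_right hnB (hnd.pow_right 3)
  obtain ⟨q, hq⟩ := htw n.natAbs (Int.squarefree_natAbs.2 hn) h6 hnBd
  have e1 : B * d ^ 3 * kst n.natAbs ^ 3 = B * (d * n) ^ 3 := by
    rw [kst_eq hn4]; ring
  rw [e1, jac_sign' hn4] at hq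
  have h3 := rootS_eq hEnt hPar hB (mul_ne_zero hd0 hn0) hq
  rw [← hε2] at h3
  exact_mod_cast h3

/-- **one half of the twists of `y² = x³ + B` has odd analytic rank** -/
theorem oddHalfS (hRT : RootTw) (hFE : FeqS) (hMLS : StMLS) (hEnt : StLent) (hPar : StLparity)
    {B : ℤ} (hB : B ≠ 0) : OddHalf 0 B := by
  refine oddHalf_of (κ := rootS B) (P := 6 * B.natAbs) ⟨3 * B.natAbs, by ring⟩
    (Nat.mul_ne_zero (by norm_num) (Int.natAbs_ne_zero.2 hB)) (twSignS hRT hEnt hPar hB) ?_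
  intro D hD
  have hD0 : D ≠ 0 := by
    rintro rfl
    rcases hD with ⟨-, ⟨h, -⟩ | ⟨d, h1, h2, -⟩⟩
    · norm_num at h
    · omega
  have hs0 : sfk D ≠ 0 := by
    unfold sfk
    split_ifs with h4
    · omega
    · exact hD0
  have e1 : AS (B * D ^ 3) = AS (B * (sfk D) ^ 3) := by
    by_cases h4 : D % 4 = 0
    · have h5 : D = 4 * sfk D := by unfold sfk; rw [if_pos h4]; omega
      have h6 : B * D ^ 3 = 64 * (B * (sfk D) ^ 3) := by
        nth_rewrite 1 [h5]; ring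
      rw [h6, AS_64 (mul_ne_zero hB (pow_ne_zero 3 hs0))]
    · have h5 : sfk D = D := by unfold sfk; rw [if_neg h4]
      rw [h5]
  have hB' : B * D ^ 3 ≠ 0 := mul_ne_zero hB (pow_ne_zero 3 hD0)
  have hco := coefS hB'
  obtain ⟨q, κ, hfe⟩ := hFE (B * D ^ 3) hB'
  have hid : ∀ n, AS (B * D ^ 3) n = LA (0 * D ^ 2) (B * D ^ 3) n := by
    intro n
    rw [hMLS _ hB' _ hco n, zero_mul]
  have hpar := rank_parity hEnt hPar hid hco.ld hfe
  have hroot : ((rootS B (sfk D) : ℤ) : ℝ) = κ := by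
    refine rootS_eq hEnt hPar hB hs0 (q := q) ?_
    rw [← e1]; exact hfe
  constructor
  · intro hodd
    have h1 : κ ≠ 1 := fun h => (Nat.not_even_iff_odd.2 hodd) (hpar.1 h)
    have h2 : κ = -1 := hfe.2.1.resolve_left h1
    rw [h2] at hroot
    exact_mod_cast hroot
  · intro hev
    rw [hpar.2 hev] at hroot
    exact_mod_cast hroot

end SX
end P004G
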