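import Vale.Agent.P004.H628.QN6
import Vale.Agent.P006.CR.Bridge
import Vale.Agent.P006.CR.Kummer

/-!
# P004G: the number of points of `y² = x³ + B` by the cubic symbol
-/

open Finset
open Vale.Agent.P006 (O om N Rs rs sym chiO Primary toC)

namespace P004G
namespace SX

theorem trS_eq {p : ℕ} [hp : Fact p.Prime] (h2 : (2 : ZMod p) ≠ 0) (b : ℤ) :
    trS b p = -∑ x : ZMod p, quadraticChar (ZMod p) (x ^ 3 + (b : ZMod p)) := by
  unfold trS
  have h1 := P004.QN.card_points h2 (fun x : ZMod p => x ^ 3 + (b : ZMod p))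
  rw [h1]; ring

/-- the trace of Frobenius for `p = 2 mod 3` -/
theorem trS_two {p : ℕ} [hp : Fact p.Prime] (h3 : p % 3 = 2) (hp2 : p ≠ 2) (b : ℤ) :
    trS b p = 0 := by
  have h2 : (2 : ZMod p) ≠ 0 := P004.QN.two_ne_of_odd hp2
  rw [trS_eq h2, neg_eq_zero]
  obtain ⟨k, hk⟩ : ∃ k, 3 * k = 2 * p - 1 := ⟨(2 * p - 1) / 3, by omega⟩
  have hleft : Function.LeftInverse (fun x : ZMod p => x ^ k) (fun x : ZMod p => x ^ 3) := by
    intro x
    simp only
    rw [← pow_mul, hk]
    have h4 : 2 * p - 1 = p + (p - 1) := by have := hp.out.pos; omega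
    rw [h4, pow_add, ZMod.pow_card, ← pow_succ', Nat.sub_add_cancel hp.out.pos, ZMod.pow_card]
  have hbij : Function.Bijective (fun x : ZMod p => x ^ 3) :=
    Finite.injective_iff_bijective.1 hleft.injective
  have e1 : ∑ x : ZMod p, quadraticChar (ZMod p) (x ^ 3 + (b : ZMod p)) =
      ∑ x : ZMod p, quadraticChar (ZMod p) (x + (b : ZMod p)) :=
    hbij.sum_comp (fun x => quadraticChar (ZMod p) (x + (b : ZMod p)))
  rw [e1]
  have e2 : ∑ x : ZMod p, quadraticChar (ZMod p) (x + (b : ZMod p)) =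
      ∑ x : ZMod p, quadraticChar (ZMod p) x :=
    Equiv.sum_comp (Equiv.addRight (b : ZMod p)) (fun x => quadraticChar (ZMod p) x)
  rw [e2]
  exact quadraticChar_sum_zero (P004.QN.ringChar_ne_two_of h2)

lemma quad_map {F K : Type*} [Field F] [Fintype F] [DecidableEq F] [Field K] [Fintype K]
    [DecidableEq K] (e : F ≃+* K) (a : F) : quadraticChar K (e a) = quadraticChar F a := by
  have h1 : e a = 0 ↔ a = 0 := by
    rw [← map_zero e, e.injective.eq_iff]
  have h2 : IsSquare (e a) ↔ IsSquare a := by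
    constructor
    · rintro ⟨c, hc⟩
      refine ⟨e.symm c, ?_⟩
      rw [← map_mul, ← hc, e.symm_apply_apply]
    · rintro ⟨c, rfl⟩
      exact ⟨e c, map_mul e c c⟩
  rw [quadraticChar_apply, quadraticChar_apply]
  unfold quadraticCharFun
  simp only [h1, h2]

section cubic

variable {π : O} [hf : Fact (Prime π)]

open Classical in
/-- the quadratic character with values in `O` -/
noncomputable def qd (π : O) [Fact (Prime π)] : MulChar (Rs π) O :=
  (quadraticChar (Rs π)).ringHomComp (Int.castRingHom O)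

open Classical in
lemma qd_apply (x : Rs π) : qd π x = ((quadraticChar (Rs π) x : ℤ) : O) := rfl

lemma star_qd (x : Rs π) : star (qd π x) = qd π x := by
  classical
  rw [qd_apply, Vale.Agent.P006.star_intCast]

lemma two_ne (h2 : N π % 2 = 1) : (2 : Rs π) ≠ 0 := by
  intro h
  have h1 : π ∣ (2 : O) := by
    rw [← Vale.Agent.P006.rs_eq_zero, map_ofNat]; exact h
  have h3 := Vale.Agent.P006.N_dvd_N h1
  have h4 : N (2 : O) = 4 := by decide
  rw [h4] at h3
  have h5 := Vale.Agent.P006.N_ne_one hf.out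
  have h6 : N π ≤ 4 := Nat.le_of_dvd (by norm_num) h3
  interval_cases N π <;> omega

lemma sum_sq (h2 : (2 : Rs π) ≠ 0) (f : Rs π → O) :
    ∑ y : Rs π, f (y ^ 2) = ∑ z : Rs π, (1 + qd π z) * f z := by
  classical
  have h1 : ∑ y : Rs π, f (y ^ 2) =
      ∑ z : Rs π, ∑ y ∈ univ.filter (fun y : Rs π => y ^ 2 = z), f (y ^ 2) :=
    (sum_fiberwise _ _ _).symm
  rw [h1]
  apply sum_congr rfl
  intro z _
  have h3 : ∑ y ∈ univ.filter (fun y : Rs π => y ^ 2 = z), f (y ^ 2) =
      ∑ y ∈ univ.filter (fun y : Rs π => y ^ 2 = z), f z := by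
    apply sum_congr rfl
    intro y hy
    rw [(mem_filter.1 hy).2]
  rw [h3, sum_const, nsmul_eq_mul, qd_apply]
  congr 1
  have h4 := quadraticChar_card_sqrts (P004.QN.ringChar_ne_two_of h2) z
  have h5 : {x : Rs π | x ^ 2 = z}.toFinset = univ.filter (fun y : Rs π => y ^ 2 = z) := by
    ext x; simp
  rw [h5] at h4
  have h6 : (((univ.filter (fun y : Rs π => y ^ 2 = z)).card : ℤ) : O) =
    ((quadraticChar (Rs π) z + 1 : ℤ) : O) := by rw [h4]
  rw [Int.cast_natCast] at h6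
  rw [h6]; push_cast; ring

lemma sum_cube (hl : ¬ Vale.Agent.P006.lam ∣ π) (f : Rs π → O) :
    ∑ y : Rs π, f (y ^ 3) = ∑ z : Rs π, (1 + chiO π z + chiO π z ^ 2) * f z := by
  classical
  rw [← sum_fiberwise (s := univ) (g := fun y : Rs π => y ^ 3)]
  apply sum_congr rfl
  intro z _
  have h3 : ∑ y ∈ univ.filter (fun y : Rs π => y ^ 3 = z), f (y ^ 3) =
      ∑ y ∈ univ.filter (fun y : Rs π => y ^ 3 = z), f z := by
    apply sum_congr rfl
    intro y hy
    rw [(mem_filter.1 hy).2]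
  rw [h3, sum_const, nsmul_eq_mul]
  congr 1
  apply Vale.Agent.P006.toC_injective
  rw [map_natCast, map_add, map_add, map_one, map_pow]
  have h4 := Vale.Agent.P006.card_cube_roots hf.out hl z
  rw [h4, Vale.Agent.P006.chi_eq]
  rfl

/-- `J(ρ, χ) = χ(4) J(χ, χ)` -/
lemma jac_qd (h2 : (2 : Rs π) ≠ 0) (hpr : Primary π) :
    jacobiSum (chiO π) (qd π) = -(chiO π 4 * π) := by
  set χ := chiO π with hχ
  have hs : ∑ x : Rs π, χ (1 - x) = 0 := by
    have h1 : χ ≠ 1 := by
      intro h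
      have h3 := Vale.Agent.P006.chiO_comp_ne_one hf.out hpr.not_lam_dvd (RingHom.id O)
        (by simpa using Vale.Agent.P006.prime_lam.ne_zero)
      apply h3
      rw [← hχ, h, MulChar.ringHomComp_one]
    rw [← MulChar.sum_eq_zero_of_ne_one h1]
    exact Equiv.sum_comp (Equiv.subLeft (1 : Rs π)) (fun x => χ x)
  have hJ := Vale.Agent.P006.jacobiSum_chiO (π := π) hpr
  rw [← hχ] at hJ
  have e1 : χ 4 * jacobiSum χ χ = jacobiSum χ (qd π) := by
    rw [jacobiSum_comm χ (qd π)]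
    unfold jacobiSum
    have e3 := sum_sq h2 (fun z => χ (1 - z))
    have e4 : ∑ z : Rs π, (1 + qd π z) * χ (1 - z) = ∑ z : Rs π, qd π z * χ (1 - z) := by
      rw [← add_zero (∑ z : Rs π, qd π z * χ (1 - z)), ← hs, ← sum_add_distrib]
      apply sum_congr rfl
      intro x _
      ring
    let e : Rs π ≃ Rs π := (Equiv.mulLeft₀ (2 : Rs π) h2).trans (Equiv.subLeft (1 : Rs π))
    have e6 : ∑ y : Rs π, χ (1 - y ^ 2) = ∑ x : Rs π, χ (1 - (e x) ^ 2) :=
      (Equiv.sum_comp e (fun y => χ (1 - y ^ 2))).symm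
    rw [← e4, ← e3, mul_sum, e6]
    apply sum_congr rfl
    intro x _
    have e5 : e x = 1 - 2 * x := rfl
    rw [e5, ← map_mul, ← map_mul]
    congr 1
    ring
  rw [← e1, hJ]; ring

lemma star_chiO (x : Rs π) : star (chiO π x) = chiO π x ^ 2 := by
  obtain ⟨a, rfl⟩ := Vale.Agent.P006.rs_surj π x
  rw [Vale.Agent.P006.chiO_rs]
  exact Vale.Agent.P006.star_isVal (Vale.Agent.P006.isVal_sym a π)

lemma chiO_neg (x : Rs π) : chiO π (-x) = chiO π x := by
  obtain ⟨a, rfl⟩ := Vale.Agent.P006.rs_surj π x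
  rw [← map_neg, Vale.Agent.P006.chiO_rs, Vale.Agent.P006.chiO_rs, Vale.Agent.P006.sym_neg_left]

/-- the character sum of `x³ + β` -/
lemma sum_cubic (h2 : (2 : Rs π) ≠ 0) (hpr : Primary π) {β : Rs π} (hβ : β ≠ 0) :
    ∑ x : Rs π, qd π (x ^ 3 + β) =
      -(qd π β * chiO π (4 * β) * π + star (qd π β * chiO π (4 * β) * π)) := by
  classical
  have hl := hpr.not_lam_dvd
  set χ := chiO π with hχ
  have hT : ∑ z : Rs π, χ z * qd π (z + β) = -(qd π β * χ (4 * β) * π) := by
    have hb : -β ≠ 0 := neg_ne_zero.2 hβ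
    rw [← Equiv.sum_comp (Equiv.mulLeft₀ (-β) hb) (fun z => χ z * qd π (z + β))]
    have h1 : ∀ w : Rs π, χ ((Equiv.mulLeft₀ (-β) hb) w) * qd π ((Equiv.mulLeft₀ (-β) hb) w + β) =
        χ β * qd π β * (χ w * qd π (1 - w)) := by
      intro w
      have e1 : (Equiv.mulLeft₀ (-β) hb) w = -(β * w) := by
        rw [Equiv.mulLeft₀_apply]; ring
      rw [e1, show -(β * w) + β = β * (1 - w) by ring, chiO_neg, map_mul, map_mul]
      ring
    rw [sum_congr rfl fun w _ => h1 w, ← mul_sum]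
    have h3 : ∑ w : Rs π, χ w * qd π (1 - w) = jacobiSum χ (qd π) := rfl
    rw [h3, jac_qd h2 hpr, map_mul]
    ring
  have h0 : ∑ z : Rs π, qd π (z + β) = 0 := by
    have h5 : ∑ z : Rs π, qd π (z + β) = ∑ z : Rs π, qd π z :=
      Equiv.sum_comp (Equiv.addRight β) (fun z => qd π z)
    rw [h5]
    have h1 := quadraticChar_sum_zero (P004.QN.ringChar_ne_two_of h2) (F := Rs π)
    have h3 : ∑ z : Rs π, qd π z = ((∑ z : Rs π, quadraticChar (Rs π) z : ℤ) : O) := by
      push_cast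
      rfl
    rw [h3, h1, Int.cast_zero]
  have hS : ∑ z : Rs π, χ z ^ 2 * qd π (z + β) = star (∑ z : Rs π, χ z * qd π (z + β)) := by
    rw [star_sum]
    apply sum_congr rfl
    intro z _
    rw [star_mul', star_qd, star_chiO]
  rw [sum_cube hl (fun y => qd π (y + β))]
  simp only [add_mul, one_mul, sum_add_distrib]
  rw [h0, hS, hT, star_neg]
  ring

end cubic

/-- the trace of Frobenius for `p = 1 mod 3` -/
theorem trS_prime {π : O} (hπ : Prime π) (hpr : Primary π) {p : ℕ} (hp : p.Prime) (hp2 : p ≠ 2)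
    (hN : N π = p) {b : ℤ} (hb : ¬ (p : ℤ) ∣ b) [Fact p.Prime] :
    ((trS b p : ℤ) : O) =
      ((quadraticChar (ZMod p) (b : ZMod p) : ℤ) : O) * sym (4 * (b : O)) π * π +
      star (((quadraticChar (ZMod p) (b : ZMod p) : ℤ) : O) * sym (4 * (b : O)) π * π) := by
  classical
  have hf : Fact (Prime π) := ⟨hπ⟩
  have h2 : (2 : Rs π) ≠ 0 := two_ne (by
    rw [hN]
    have := hp.eq_two_or_odd
    omega)
  have h2' : (2 : ZMod p) ≠ 0 := P004.QN.two_ne_of_odd hp2
  have hcard : Fintype.card (Rs π) = p := by rw [Vale.Agent.P006.fcard_Rs, hN]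
  let e : ZMod p ≃+* Rs π := ZMod.ringEquivOfPrime (Rs π) hp hcard
  have heb : e (b : ZMod p) = rs π (b : O) := by
    rw [map_intCast, map_intCast]
  have hβ : rs π (b : O) ≠ 0 := by
    rw [← heb]
    intro h
    have h1 : (b : ZMod p) = 0 := by
      apply e.injective
      rw [h, map_zero]
    rw [ZMod.intCast_zmod_eq_zero_iff_dvd] at h1
    exact hb h1
  have h1 := sum_cubic (π := π) h2 hpr hβ
  have h3 : ∑ x : Rs π, qd π (x ^ 3 + rs π (b : O)) =
      ((∑ x : ZMod p, quadraticChar (ZMod p) (x ^ 3 + (b : ZMod p)) : ℤ) : O) := by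
    rw [← Equiv.sum_comp e.toEquiv (fun x => qd π (x ^ 3 + rs π (b : O)))]
    push_cast
    apply sum_congr rfl
    intro x _
    rw [← heb]
    have h4 : (e.toEquiv x) ^ 3 + e (b : ZMod p) = e (x ^ 3 + (b : ZMod p)) := by
      rw [map_add, map_pow]; rfl
    rw [h4, qd_apply, quad_map]
  have h5 : qd π (rs π (b : O)) = ((quadraticChar (ZMod p) (b : ZMod p) : ℤ) : O) := by
    rw [← heb, qd_apply, quad_map]
  have h6 : chiO π (4 * rs π (b : O)) = sym (4 * (b : O)) π := by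
    have h7 : (4 : Rs π) * rs π (b : O) = rs π (4 * (b : O)) := by
      rw [map_mul, map_ofNat]
    rw [h7, Vale.Agent.P006.chiO_rs]
  rw [h3, h5, h6] at h1
  rw [trS_eq h2', Int.cast_neg, h1, neg_neg]

end SX
end P004G
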