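import Vale.Agent.P004G.H253.SX1

/-!
# P004G: primary Eisenstein integers of given norm
-/

open Finset
open Vale.Agent.P006 (O om N Primary isUnit_iff_N N_mul_star N_mul N_pow N_star N_one)

namespace P004G
namespace SX

/-- the embedding of pairs of integers -/
def emb : ℤ × ℤ ↪ O := ⟨fun q => ⟨q.1, q.2⟩, by
  rintro ⟨a, b⟩ ⟨c, d⟩ h
  have h1 := congrArg QuadraticAlgebra.re h
  have h2 := congrArg QuadraticAlgebra.im h
  exact Prod.ext h1 h2⟩

/-- the primary Eisenstein integers of norm `n` -/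
noncomputable def PA (n : ℕ) : Finset O :=
  (((Finset.Icc (-(2 * n : ℤ)) (2 * n)) ×ˢ (Finset.Icc (-(2 * n : ℤ)) (2 * n))).filter
    (fun q => N (emb q) = n ∧ Primary (emb q))).map emb

lemma mem_PA {n : ℕ} {z : O} : z ∈ PA n ↔ N z = n ∧ Primary z := by
  unfold PA
  rw [Finset.mem_map]
  constructor
  · rintro ⟨q, h, rfl⟩
    rw [Finset.mem_filter] at h
    exact h.2
  · rintro ⟨h1, h2⟩
    refine ⟨(z.re, z.im), ?_, rfl⟩
    have h3 := Vale.Agent.P006.abs_re_le (z := z) (n := n) h1.le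
    rw [abs_le, abs_le] at h3
    rw [Finset.mem_filter, Finset.mem_product, Finset.mem_Icc, Finset.mem_Icc]
    exact ⟨⟨h3.1, h3.2⟩, h1, h2⟩

lemma star_mem_PA {n : ℕ} {z : O} (h : z ∈ PA n) : star z ∈ PA n := by
  rw [mem_PA] at h ⊢
  exact ⟨by rw [N_star]; exact h.1, h.2.star⟩

lemma PA_mod {n : ℕ} (hn : n % 3 ≠ 1) : PA n = ∅ := by
  rw [Finset.eq_empty_iff_forall_notMem]
  intro z hz
  rw [mem_PA] at hz
  have := hz.2.N_mod
  rw [hz.1] at this
  omega

lemma PA_one : PA 1 = {1} := by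
  ext u
  rw [mem_PA, Finset.mem_singleton]
  constructor
  · rintro ⟨h1, h2⟩
    exact h2.eq_one (isUnit_iff_N.2 h1)
  · rintro rfl
    exact ⟨N_one, Vale.Agent.P006.primary_one⟩

/-! ### unique factorisation -/

lemma coprime_of_N {z w : O} (h : Nat.Coprime (N z) (N w)) : IsCoprime z w := by
  have h1 : IsCoprime ((N z : ℕ) : ℤ) ((N w : ℕ) : ℤ) := Nat.isCoprime_iff_coprime.mpr h
  have h2 := h1.map (Int.castRingHom O)
  simp only [eq_intCast, Int.cast_natCast] at h2
  rw [N_mul_star, N_mul_star] at h2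
  exact h2.of_mul_left_left.of_mul_right_left

lemma eq_of_dvd {z w : O} (hz : Primary z) (hw : Primary w) (hn : N z = N w)
    (h : z ∣ w) : z = w := by
  obtain ⟨u, rfl⟩ := h
  rw [N_mul] at hn
  have h0 : N z ≠ 0 := (Vale.Agent.P006.N_pos hz.ne_zero).ne'
  have hu : N u = 1 := by
    have : N z * 1 = N z * N u := by rw [mul_one]; exact hn
    exact (Nat.eq_of_mul_eq_mul_left (Nat.pos_of_ne_zero h0) this).symm
  have h3 : Primary u := Primary.of_mul hz hw
  rw [h3.eq_one (isUnit_iff_N.2 hu), mul_one]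

lemma inj_mul {m n : ℕ} (h : Nat.Coprime m n) :
    Set.InjOn (fun p : O × O => p.1 * p.2) (PA m ×ˢ PA n : Finset _) := by
  rintro ⟨z, w⟩ h1 ⟨z', w'⟩ h2 heq
  rw [Finset.mem_coe, Finset.mem_product, mem_PA, mem_PA] at h1 h2
  simp only at h1 h2 heq
  have hc : IsCoprime z w' := coprime_of_N (by rw [h1.1.1, h2.2.1]; exact h)
  have hd : z ∣ z' := by
    apply hc.dvd_of_dvd_mul_right
    rw [← heq]; exact dvd_mul_right _ _
  have he : z = z' := eq_of_dvd h1.1.2 h2.1.2 (by rw [h1.1.1, h2.1.1]) hd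
  subst he
  have : w = w' := mul_left_cancel₀ h1.1.2.ne_zero heq
  rw [this]

lemma maps_mul {m n : ℕ} {p : O × O} (hp : p ∈ PA m ×ˢ PA n) :
    p.1 * p.2 ∈ PA (m * n) := by
  rw [Finset.mem_product, mem_PA, mem_PA] at hp
  rw [mem_PA, N_mul, hp.1.1, hp.2.1]
  exact ⟨rfl, hp.1.2.mul hp.2.2⟩

lemma natCast_dvd_natCast {a b : ℕ} (h : (a : O) ∣ (b : O)) : a ∣ b := by
  obtain ⟨c, hc⟩ := h
  have h1 := congrArg QuadraticAlgebra.re hc
  have h2 : ((a : ℕ) : ℤ) ∣ b := by
    refine ⟨c.re, ?_⟩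
    have h3 : (((b : ℕ) : O)).re = b := by simp
    have h4 : ((a : O) * c).re = a * c.re := by simp
    rw [← h3, h1, h4]
  exact_mod_cast h2

lemma surj_mul {m n : ℕ} (h : Nat.Coprime m n) :
    Set.SurjOn (fun p : O × O => p.1 * p.2) (PA m ×ˢ PA n : Finset _)
      (PA (m * n)) := by
  classical
  intro u hu
  rw [Finset.mem_coe, mem_PA] at hu
  obtain ⟨hN, hP⟩ := hu
  set z0 := EuclideanDomain.gcd u (m : O) with hz0
  have hd1 : z0 ∣ u := EuclideanDomain.gcd_dvd_left _ _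
  have hd2 : z0 ∣ (m : O) := EuclideanDomain.gcd_dvd_right _ _
  have hab := EuclideanDomain.gcd_eq_gcd_ab u (m : O)
  set a := EuclideanDomain.gcdA u (m : O)
  set b := EuclideanDomain.gcdB u (m : O)
  rw [← hz0] at hab
  have hodd : (m * n) % 3 = 1 := by
    have := hP.N_mod
    rw [hN] at this
    exact this
  have hm0 : m ≠ 0 := by rintro rfl; simp at hodd
  have hn0 : n ≠ 0 := by rintro rfl; simp at hodd
  -- the norm of z0 is m
  have h1 : m ∣ N z0 := by
    apply natCast_dvd_natCast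
    have e1 : u * star u = (m : O) * (n : O) := by
      rw [← N_mul_star, hN]; push_cast; rfl
    have e2 : star ((m : O)) = (m : O) := by
      have := Vale.Agent.P006.star_intCast (m : ℤ)
      simpa using this
    rw [N_mul_star, hab, star_add, star_mul', star_mul', e2]
    refine ⟨(n : O) * (a * star a) + u * a * star b + b * (star a * star u)
      + (m : O) * (b * star b), ?_⟩
    linear_combination (a * star a) * e1
  have h2 : N z0 ∣ m := by
    have h3 : N z0 ∣ m * n := by rw [← hN]; exact Vale.Agent.P006.N_dvd_N hd1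
    have h4 : N z0 ∣ m ^ 2 := by
      rw [← Vale.Agent.P006.N_natCast m]; exact Vale.Agent.P006.N_dvd_N hd2
    have h5 : Nat.gcd (m * n) (m * m) = m * Nat.gcd n m := Nat.gcd_mul_left m n m
    rw [Nat.Coprime.gcd_eq_one h.symm, mul_one] at h5
    rw [← h5]
    rw [pow_two] at h4
    exact Nat.dvd_gcd h3 h4
  have h3 : N z0 = m := Nat.dvd_antisymm h2 h1
  have hl : ¬ Vale.Agent.P006.lam ∣ z0 := fun hl => hP.not_lam_dvd (hl.trans hd1)
  obtain ⟨ε, hε, hzp⟩ := Vale.Agent.P006.exists_unit_mul_primary hl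
  have hdu : ε * z0 ∣ u := hε.mul_left_dvd.mpr hd1
  obtain ⟨w, hw⟩ := hdu
  have hzn : N (ε * z0) = m := by rw [N_mul, h3, isUnit_iff_N.1 hε, one_mul]
  refine ⟨(ε * z0, w), ?_, hw.symm⟩
  rw [Finset.mem_coe, Finset.mem_product, mem_PA, mem_PA]
  refine ⟨⟨hzn, hzp⟩, ?_, Primary.of_mul hzp (hw ▸ hP)⟩
  have : N u = m * N w := by rw [hw, N_mul, hzn]
  rw [hN] at this
  exact (Nat.eq_of_mul_eq_mul_left (Nat.pos_of_ne_zero hm0) this).symm

/-! ### prime powers -/

lemma exists_pi {p : ℕ} (hp : p.Prime) (h3 : p % 3 = 1) :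
    ∃ ϖ : O, N ϖ = p ∧ Primary ϖ := by
  obtain ⟨π, h1, h2⟩ := Vale.Agent.P006.exists_primary_of_prime hp h3
  first
    | exact ⟨π, h1, h2.1⟩
    | exact ⟨π, h2.2, h2.1⟩
    | exact ⟨π, h2.1, h1⟩
    | exact ⟨π, h2.1, h2.2⟩

lemma exists_rep {p : ℕ} (hp : p.Prime) {ϖ : O} (hϖ : N ϖ = p) (hP : Primary ϖ) :
    ∀ (k : ℕ) (u : O), N u = p ^ k → Primary u →
      ∃ i ≤ k, u = ϖ ^ i * star ϖ ^ (k - i) := by
  intro k
  induction k with
  | zero =>
    intro u hu hPu
    refine ⟨0, le_rfl, ?_⟩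
    rw [pow_zero] at hu
    rw [hPu.eq_one (isUnit_iff_N.2 hu)]
    simp
  | succ k ih =>
    intro u hu hPu
    have hprime := Vale.Agent.P006.prime_of_N_prime (z := ϖ) (by rw [hϖ]; exact hp)
    have h1 : ϖ ∣ u * star u := by
      rw [← N_mul_star, hu]
      have : ϖ ∣ (p : O) := by
        rw [← hϖ, N_mul_star]; exact dvd_mul_right _ _
      refine this.trans ?_
      rw [pow_succ]
      push_cast
      exact dvd_mul_left _ _
    rcases hprime.dvd_or_dvd h1 with h | h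
    · obtain ⟨c, hc⟩ := h
      have hcP : Primary c := Primary.of_mul hP (hc ▸ hPu)
      have hcn : N c = p ^ k := by
        have e : N u = p * N c := by rw [hc, N_mul, hϖ]
        rw [hu, pow_succ, mul_comm] at e
        exact (Nat.eq_of_mul_eq_mul_left hp.pos e).symm
      obtain ⟨i, hi, hrep⟩ := ih c hcn hcP
      refine ⟨i + 1, by omega, ?_⟩
      rw [hc, hrep, pow_succ, Nat.add_sub_add_right]; ring
    · obtain ⟨c, hc⟩ := h
      have hu' : u = star ϖ * star c := by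
        have := congrArg star hc
        rw [star_star, star_mul'] at this
        exact this
      have hcP : Primary (star c) := Primary.of_mul hP.star (hu' ▸ hPu)
      have hcn : N (star c) = p ^ k := by
        have e : N u = p * N (star c) := by rw [hu', N_mul, N_star, hϖ]
        rw [hu, pow_succ, mul_comm] at e
        exact (Nat.eq_of_mul_eq_mul_left hp.pos e).symm
      obtain ⟨i, hi, hrep⟩ := ih (star c) hcn hcP
      refine ⟨i, by omega, ?_⟩
      rw [hu', hrep]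
      have : k + 1 - i = (k - i) + 1 := by omega
      rw [this, pow_succ]; ring

lemma pow_inj {p : ℕ} (hp : p.Prime) {ϖ : O} (hϖ : N ϖ = p) (hP : Primary ϖ)
    (k i j : ℕ) (hij : i < j) (hj : j ≤ k) :
    ϖ ^ i * star ϖ ^ (k - i) ≠ ϖ ^ j * star ϖ ^ (k - j) := by
  intro h
  have h0 : ϖ ≠ 0 := hP.ne_zero
  have h0' : star ϖ ≠ 0 := hP.star.ne_zero
  have e1 : k - i = (j - i) + (k - j) := by omega
  have e2 : j = i + (j - i) := by omega
  have h1 : (ϖ ^ i * star ϖ ^ (k - j)) * star ϖ ^ (j - i) =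
      (ϖ ^ i * star ϖ ^ (k - j)) * ϖ ^ (j - i) := by
    calc _ = ϖ ^ i * star ϖ ^ (k - i) := by rw [e1, pow_add]; ring
      _ = ϖ ^ j * star ϖ ^ (k - j) := h
      _ = ϖ ^ (i + (j - i)) * star ϖ ^ (k - j) := by rw [← e2]
      _ = _ := by rw [pow_add]; ring
  have h2 : star ϖ ^ (j - i) = ϖ ^ (j - i) :=
    mul_left_cancel₀ (mul_ne_zero (pow_ne_zero _ h0) (pow_ne_zero _ h0')) h1
  have h3 : ϖ ∣ star ϖ ^ (j - i) := by
    rw [h2]; exact dvd_pow_self _ (by omega)
  have hprime := Vale.Agent.P006.prime_of_N_prime (z := ϖ) (by rw [hϖ]; exact hp)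
  have h4 : ϖ ∣ star ϖ := hprime.dvd_of_dvd_pow h3
  exact Vale.Agent.P006.ne_star_of_N_prime hp hϖ (eq_of_dvd hP hP.star (N_star ϖ).symm h4)

lemma PA_pow {p : ℕ} (hp : p.Prime) {ϖ : O} (hϖ : N ϖ = p) (hP : Primary ϖ) (k : ℕ) :
    PA (p ^ k) = (Finset.range (k + 1)).image (fun i => ϖ ^ i * star ϖ ^ (k - i)) := by
  classical
  ext u
  rw [mem_PA, Finset.mem_image]
  constructor
  · rintro ⟨h1, h2⟩
    obtain ⟨i, hi, h⟩ := exists_rep hp hϖ hP k u h1 h2
    exact ⟨i, Finset.mem_range.mpr (by omega), h.symm⟩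
  · rintro ⟨i, hi, rfl⟩
    rw [Finset.mem_range] at hi
    constructor
    · rw [N_mul, N_pow, N_pow, N_star, hϖ, ← pow_add]
      have : i + (k - i) = k := by omega
      rw [this]
    · exact (hP.pow _).mul (hP.star.pow _)

lemma injOn_pow {p : ℕ} (hp : p.Prime) {ϖ : O} (hϖ : N ϖ = p) (hP : Primary ϖ)
    (k : ℕ) : Set.InjOn (fun i => ϖ ^ i * star ϖ ^ (k - i)) (Finset.range (k + 1)) := by
  intro i hi j hj h
  rw [Finset.mem_coe, Finset.mem_range] at hi hj
  rcases lt_trichotomy i j with h1 | h1 | h1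
  · exact absurd h (pow_inj hp hϖ hP k i j h1 (by omega))
  · exact h1
  · exact absurd h.symm (pow_inj hp hϖ hP k j i h1 (by omega))

lemma N_mod_cases (z : O) : N z % 3 = 0 ∨ N z % 3 = 1 := by
  by_cases h : Vale.Agent.P006.lam ∣ z
  · left
    have h1 := Vale.Agent.P006.N_dvd_N h
    rw [Vale.Agent.P006.N_lam] at h1
    omega
  · right; exact Vale.Agent.P006.N_mod_of_not_lam_dvd h

/-- rational primes `2 mod 3` are prime -/
lemma prime_natCast {p : ℕ} (hp : p.Prime) (h3 : p % 3 = 2) : Prime (p : O) := by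
  apply Irreducible.prime
  constructor
  · rw [isUnit_iff_N, Vale.Agent.P006.N_natCast]
    intro h
    have := hp.two_le
    nlinarith
  · intro a b hab
    have h1 : N a * N b = p ^ 2 := by rw [← N_mul, ← hab, Vale.Agent.P006.N_natCast]
    have h2 : N a ∣ p ^ 2 := ⟨N b, h1.symm⟩
    rw [Nat.dvd_prime_pow hp] at h2
    obtain ⟨k, hk, hk2⟩ := h2
    interval_cases k
    · left; rw [isUnit_iff_N, hk2, pow_zero]
    · exfalso
      rw [pow_one] at hk2
      have := N_mod_cases a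
      omega
    · right
      rw [isUnit_iff_N]
      rw [hk2] at h1
      have hp0 : 0 < p ^ 2 := pow_pos hp.pos 2
      exact Nat.eq_of_mul_eq_mul_left hp0 (by rw [h1, mul_one])

lemma star_natCast (n : ℕ) : star ((n : ℕ) : O) = (n : O) := by
  have := Vale.Agent.P006.star_intCast (n : ℤ)
  simpa using this

/-- `-p` for the primes `p = 2 mod 3` -/
lemma primary_neg {p : ℕ} (h3 : p % 3 = 2) : Primary ((-(p : ℤ) : ℤ) : O) := by
  rw [Vale.Agent.P006.primary_intCast]; omega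

lemma N_neg_nat (p : ℕ) : N ((-(p : ℤ) : ℤ) : O) = p ^ 2 := by
  rw [Vale.Agent.P006.N_intCast]; simp

lemma PA_two {p : ℕ} (hp : p.Prime) (h3 : p % 3 = 2) (k : ℕ) :
    PA (p ^ (k + 2)) = (PA (p ^ k)).map ⟨fun z => ((-(p : ℤ) : ℤ) : O) * z, by
      intro z w h
      exact mul_left_cancel₀ (primary_neg h3).ne_zero h⟩ := by
  classical
  have hPp := primary_neg h3
  have hNp := N_neg_nat p
  have hprime := prime_natCast hp h3
  ext u
  rw [mem_PA, Finset.mem_map]
  constructor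
  · rintro ⟨h1, h2⟩
    have h4 : ((p : ℕ) : O) ∣ u * star u := by
      rw [← N_mul_star, h1, pow_succ]
      push_cast
      exact dvd_mul_left _ _
    have h5 : ((p : ℕ) : O) ∣ u := by
      rcases hprime.dvd_or_dvd h4 with h | h
      · exact h
      · obtain ⟨c, hc⟩ := h
        have := congrArg star hc
        rw [star_star, star_mul', star_natCast] at this
        rw [this]
        exact dvd_mul_right _ _
    obtain ⟨c, hc⟩ := h5
    have hu : u = ((-(p : ℤ) : ℤ) : O) * (-c) := by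
      rw [hc]; push_cast; ring
    refine ⟨-c, ?_, hu.symm⟩
    rw [mem_PA]
    refine ⟨?_, Primary.of_mul hPp (hu ▸ h2)⟩
    have e : N u = p ^ 2 * N (-c) := by rw [hu, N_mul, hNp]
    rw [h1, pow_add, mul_comm] at e
    exact (Nat.eq_of_mul_eq_mul_left (pow_pos hp.pos 2) e).symm
  · rintro ⟨z, hz, rfl⟩
    rw [mem_PA] at hz
    constructor
    · change N (((-(p : ℤ) : ℤ) : O) * z) = _
      rw [N_mul, hNp, hz.1, pow_add, mul_comm]
    · exact hPp.mul hz.2

end SX
end P004G
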