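import Vale.Agent.P004G.H253.SX2
import Mathlib.NumberTheory.LegendreSymbol.QuadraticReciprocity
import Mathlib.NumberTheory.LegendreSymbol.JacobiSymbol

/-!
# P004G: the sextic symbol with numerator `4 B`, as a function of the denominator
-/

open Finset
open Vale.Agent.P006 (O om N sym Primary isUnit_iff_N N_mul_star N_mul N_pow N_star N_one IsVal
  isVal_sym sym_ne_zero sym_eq_zero sym_mul_left sym_star sym_periodic sym_int sym_neg_left
  sym_neg_right sym_pow_left recip star_intCast)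

namespace P004G
namespace SX

/-! ### zero or a unit -/

/-- zero or a unit -/
def IsU (u : O) : Prop := u = 0 ∨ IsUnit u

lemma isU_zero : IsU 0 := Or.inl rfl
lemma isU_one : IsU 1 := Or.inr isUnit_one

lemma IsU.mul {a b : O} (ha : IsU a) (hb : IsU b) : IsU (a * b) := by
  rcases ha with rfl | ha
  · rw [zero_mul]; exact isU_zero
  · rcases hb with rfl | hb
    · rw [mul_zero]; exact isU_zero
    · exact Or.inr (ha.mul hb)

lemma IsU.pow {a : O} (ha : IsU a) (n : ℕ) : IsU (a ^ n) := by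
  induction n with
  | zero => rw [pow_zero]; exact isU_one
  | succ n ih => rw [pow_succ]; exact ih.mul ha

lemma isUnit_star {a : O} (ha : IsUnit a) : IsUnit (star a) := by
  rw [isUnit_iff_N, N_star, ← isUnit_iff_N]; exact ha

lemma IsU.star {a : O} (ha : IsU a) : IsU (star a) := by
  rcases ha with rfl | ha
  · rw [star_zero]; exact isU_zero
  · exact Or.inr (isUnit_star ha)

lemma unit_mul_star {u : O} (hu : IsUnit u) : u * star u = 1 := by
  rw [← N_mul_star, isUnit_iff_N.1 hu, Nat.cast_one]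

lemma IsU.mul_star {a : O} (ha : IsU a) (h0 : a ≠ 0) : a * Star.star a = 1 := by
  rcases ha with rfl | ha
  · exact absurd rfl h0
  · exact unit_mul_star ha

lemma unit_pow_six {u : O} (hu : IsUnit u) : u ^ 6 = 1 := by
  rcases Vale.Agent.P006.isUnit_cases hu with h | h | h | h | h | h <;> rw [h] <;> decide

lemma IsU.pow_six {a : O} (ha : IsU a) (h0 : a ≠ 0) : a ^ 6 = 1 := by
  rcases ha with rfl | ha
  · exact absurd rfl h0
  · exact unit_pow_six ha

lemma isU_isVal {u : O} (h : IsVal u) : IsU u := by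
  rcases h with rfl | rfl | rfl | rfl
  · exact isU_zero
  · exact isU_one
  · exact Or.inr Vale.Agent.P006.isUnit_om
  · exact Or.inr (Vale.Agent.P006.isUnit_om.pow 2)

lemma isU_sym (a b : O) : IsU (sym a b) := isU_isVal (isVal_sym a b)

lemma isU_int {n : ℤ} (h : n = 0 ∨ n = 1 ∨ n = -1) : IsU ((n : ℤ) : O) := by
  rcases h with rfl | rfl | rfl
  · rw [Int.cast_zero]; exact isU_zero
  · rw [Int.cast_one]; exact isU_one
  · right; rw [Int.cast_neg, Int.cast_one]; exact isUnit_one.neg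

/-! ### congruences for the norm -/

lemma intCast_dvd_intCast {a b : ℤ} (h : (a : O) ∣ (b : O)) : a ∣ b := by
  obtain ⟨c, hc⟩ := h
  have h1 := congrArg QuadraticAlgebra.re hc
  refine ⟨c.re, ?_⟩
  have h3 : (((b : ℤ) : O)).re = b := by simp
  have h4 : ((a : O) * c).re = a * c.re := by simp
  rw [← h3, h1, h4]

lemma N_congr {n : ℤ} {z w : O} (h : (n : O) ∣ z - w) : n ∣ (N z : ℤ) - N w := by
  apply intCast_dvd_intCast
  push_cast
  rw [N_mul_star, N_mul_star]
  have h1 : z * star z - w * star w = (z - w) * star z + w * (star (z - w)) := by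
    rw [star_sub]; ring
  rw [h1]
  apply dvd_add (Dvd.dvd.mul_right h _) (Dvd.dvd.mul_left _ _)
  obtain ⟨c, hc⟩ := h
  rw [hc, star_mul', star_intCast]
  exact dvd_mul_right _ _

/-! ### the symbol with denominator `q` -/

/-- the product of the quadratic symbol of the norm and of the cubic symbol -/
noncomputable def sx (q : ℕ) (z : O) : O := ((jacobiSym (N z : ℤ) q : ℤ) : O) * sym z (q : O)

lemma sx_isU (q : ℕ) (z : O) : IsU (sx q z) :=
  (isU_int (jacobiSym.trichotomy _ _)).mul (isU_sym _ _)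

lemma sx_mul (q : ℕ) (z w : O) : sx q (z * w) = sx q z * sx q w := by
  unfold sx
  rw [N_mul, Nat.cast_mul, jacobiSym.mul_left, sym_mul_left]
  push_cast; ring

lemma star_natCast' (n : ℕ) : star ((n : ℕ) : O) = (n : O) := star_natCast n

lemma sx_star (q : ℕ) (z : O) : sx q (star z) = star (sx q z) := by
  unfold sx
  rw [N_star, star_mul', star_intCast, ← sym_star, star_natCast']

lemma sx_congr {q : ℕ} {z w : O} (h : (q : O) ∣ z - w) : sx q z = sx q w := by
  unfold sx
  rw [sym_periodic h]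
  congr 2
  have h1 : ((q : ℤ) : O) ∣ z - w := by rw [Int.cast_natCast]; exact h
  have h2 := N_congr h1
  exact jacobiSym.mod_left'
    (Int.emod_eq_emod_iff_emod_sub_eq_zero.2 (Int.emod_eq_zero_of_dvd h2))

lemma sx_eq_zero_iff {q : ℕ} (hq : q.Prime) (z : O) : sx q z = 0 ↔ q ∣ N z := by
  unfold sx
  rw [mul_eq_zero]
  constructor
  · rintro (h | h)
    · have h1 : jacobiSym (N z : ℤ) q = 0 := by exact_mod_cast h
      rw [jacobiSym.eq_zero_iff] at h1
      have h2 := h1.2
      have h3 : Int.gcd (N z : ℤ) (q : ℤ) = Nat.gcd (N z) q := Int.gcd_natCast_natCast _ _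
      rw [h3] at h2
      by_contra h4
      exact h2 (Nat.Coprime.symm ((Nat.Prime.coprime_iff_not_dvd hq).2 h4))
    · by_contra h4
      rw [sym_eq_zero] at h
      apply h
      apply coprime_of_N
      rw [Vale.Agent.P006.N_natCast]
      exact Nat.Coprime.pow_right 2 (Nat.Coprime.symm ((Nat.Prime.coprime_iff_not_dvd hq).2 h4))
  · intro h
    left
    have h1 : jacobiSym (N z : ℤ) q = 0 := by
      rw [jacobiSym.eq_zero_iff]
      refine ⟨hq.ne_zero, ?_⟩
      have h3 : Int.gcd (N z : ℤ) (q : ℤ) = Nat.gcd (N z) q := Int.gcd_natCast_natCast _ _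
      rw [h3, Nat.gcd_eq_right h]
      exact hq.one_lt.ne'
    rw [h1, Int.cast_zero]

lemma sx_int {q : ℕ} (hq : q.Prime) {n : ℤ} (h : ¬ (q : ℤ) ∣ n) : sx q (n : O) = 1 := by
  have hc : IsCoprime n (q : ℤ) := by
    rw [isCoprime_comm]
    exact (Prime.coprime_iff_not_dvd (Nat.prime_iff_prime_int.1 hq)).2 h
  unfold sx
  have h1 : ((q : ℕ) : O) = ((q : ℤ) : O) := by rw [Int.cast_natCast]
  rw [h1, sym_int hc, mul_one, Vale.Agent.P006.N_intCast]
  have h2 : ((n.natAbs ^ 2 : ℕ) : ℤ) = n ^ 2 := by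
    rw [Nat.cast_pow, Int.natCast_natAbs, sq_abs]
  have h3 : Int.gcd n q = 1 := Int.isCoprime_iff_gcd_eq_one.1 hc
  rw [h2, jacobiSym.sq_one' h3, Int.cast_one]

/-! ### the function `X` -/

/-- the primes `≥ 5` of bad reduction -/
noncomputable def SS (B : ℤ) : Finset ℕ :=
  B.natAbs.primeFactors.filter (fun q => 5 ≤ q ∧ ¬ 6 ∣ padicValInt q B)

lemma RS_eq (B : ℤ) : RS B = ∏ q ∈ SS B, q := by
  unfold RS SS
  rw [prod_filter]

lemma mem_SS {B : ℤ} {q : ℕ} (h : q ∈ SS B) : q.Prime ∧ 5 ≤ q ∧ ¬ 6 ∣ padicValInt q B := by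
  unfold SS at h
  rw [mem_filter, Nat.mem_primeFactors] at h
  exact ⟨h.1.1, h.2⟩

/-- good reduction at `2` -/
def good2 (B : ℤ) : Prop := padicValInt 2 B % 6 = 4 ∧ cop B 2 % 4 = 1

/-- the exponent of the character `χ₄` -/
noncomputable def e4 (B : ℤ) : ℕ := if cop B 2 % 4 = 1 then 0 else 1

open Classical in
/-- the part at `2` -/
noncomputable def T2 (B : ℤ) (z : O) : O := if good2 B then 1 else
  ((ZMod.χ₈ (N z : ZMod 8) : ℤ) : O) ^ padicValInt 2 B *
    ((ZMod.χ₄ (N z : ZMod 4) : ℤ) : O) ^ e4 B * sym z 2 ^ (padicValInt 2 B + 2)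

open Classical in
/-- the part at `2` of the conductor -/
noncomputable def b2 (B : ℤ) : ℕ := if good2 B then 1 else 2

/-- the sextic symbol `(4B/z)` -/
noncomputable def X (B : ℤ) (z : O) : O :=
  T2 B z * sym 3 z ^ padicValInt 3 B * ∏ q ∈ SS B, sx q z ^ padicValInt q B

lemma chi4_cases (a : ZMod 4) : ZMod.χ₄ a = 0 ∨ ZMod.χ₄ a = 1 ∨ ZMod.χ₄ a = -1 :=
  ZMod.isQuadratic_χ₄ a

lemma chi8_cases (a : ZMod 8) : ZMod.χ₈ a = 0 ∨ ZMod.χ₈ a = 1 ∨ ZMod.χ₈ a = -1 :=
  ZMod.isQuadratic_χ₈ a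

lemma T2_isU (B : ℤ) (z : O) : IsU (T2 B z) := by
  unfold T2
  split_ifs
  · exact isU_one
  · exact (((isU_int (chi8_cases _)).pow _).mul ((isU_int (chi4_cases _)).pow _)).mul
      ((isU_sym _ _).pow _)

lemma T2_mul (B : ℤ) (z w : O) : T2 B (z * w) = T2 B z * T2 B w := by
  unfold T2
  split_ifs
  · rw [one_mul]
  · rw [N_mul, Nat.cast_mul, Nat.cast_mul, map_mul, map_mul, sym_mul_left]
    push_cast
    rw [mul_pow, mul_pow, mul_pow]
    ring

lemma T2_star (B : ℤ) (z : O) : T2 B (star z) = star (T2 B z) := by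
  unfold T2
  split_ifs
  · rw [star_one]
  · have h2 : star (2 : O) = 2 := by
      have := star_natCast 2
      simpa using this
    rw [N_star, star_mul', star_mul', star_pow, star_pow, star_pow, star_intCast, star_intCast,
      ← sym_star, h2]

lemma T2_congr (B : ℤ) {z w : O} (h : ((8 : ℤ) : O) ∣ z - w) : T2 B z = T2 B w := by
  unfold T2
  split_ifs
  · rfl
  · have h1 := N_congr h
    have h8 : ((N z : ℕ) : ZMod 8) = (N w : ZMod 8) := by
      rw [← Int.cast_natCast (R := ZMod 8) (N z), ← Int.cast_natCast (R := ZMod 8) (N w)]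
      exact (ZMod.intCast_eq_intCast_iff_dvd_sub _ _ 8).2 (by
        rw [← dvd_neg, neg_sub]; exact_mod_cast h1)
    have h4 : ((N z : ℕ) : ZMod 4) = (N w : ZMod 4) := by
      rw [← Int.cast_natCast (R := ZMod 4) (N z), ← Int.cast_natCast (R := ZMod 4) (N w)]
      exact (ZMod.intCast_eq_intCast_iff_dvd_sub _ _ 4).2 (by
        rw [← dvd_neg, neg_sub]
        exact Dvd.dvd.trans (by norm_num) h1)
    have h2 : (2 : O) ∣ z - w := by
      refine Dvd.dvd.trans ?_ h
      exact ⟨4, by norm_num⟩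
    rw [h8, h4, sym_periodic h2]

lemma two_dvd_of_N {z : O} (h : 2 ∣ N z) : (2 : O) ∣ z := by
  have hp := prime_natCast Nat.prime_two rfl
  have h1 : ((2 : ℕ) : O) ∣ z * star z := by
    rw [← N_mul_star]
    obtain ⟨c, hc⟩ := h
    rw [hc]; push_cast; exact dvd_mul_right _ _
  rcases hp.dvd_or_dvd h1 with h | h
  · simpa using h
  · obtain ⟨c, hc⟩ := h
    have := congrArg star hc
    rw [star_star, star_mul', star_natCast] at this
    rw [this]
    exact ⟨star c, by push_cast; rfl⟩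

lemma T2_eq_zero_iff (B : ℤ) (z : O) : T2 B z = 0 ↔ ¬ (N z).Coprime (b2 B) := by
  unfold T2 b2
  split_ifs with h
  · simp
  · constructor
    · intro h1 h2
      rw [Nat.coprime_two_right] at h2
      have h3 : sym z 2 ≠ 0 := by
        rw [sym_ne_zero]
        apply coprime_of_N
        have : N (2 : O) = 4 := by decide
        rw [this]
        have h5 : Nat.Coprime (N z) (2 ^ 2) := (Nat.coprime_two_right.2 h2).pow_right 2
        simpa using h5
      have h4 : ZMod.χ₄ (N z : ZMod 4) ≠ 0 := by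
        rcases Nat.odd_mod_four_iff.1 (Nat.odd_iff.1 h2) with h4 | h4
        · rw [ZMod.χ₄_nat_one_mod_four h4]; norm_num
        · rw [ZMod.χ₄_nat_three_mod_four h4]; norm_num
      have h5 : ZMod.χ₈ (N z : ZMod 8) ≠ 0 := by
        rw [ZMod.χ₈_nat_eq_if_mod_eight]
        have := Nat.odd_iff.1 h2
        split_ifs <;> omega
      have h6 : ((ZMod.χ₈ (N z : ZMod 8) : ℤ) : O) ≠ 0 := by exact_mod_cast h5
      have h7 : ((ZMod.χ₄ (N z : ZMod 4) : ℤ) : O) ≠ 0 := by exact_mod_cast h4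
      exact mul_ne_zero (mul_ne_zero (pow_ne_zero _ h6) (pow_ne_zero _ h7)) (pow_ne_zero _ h3) h1
    · intro h1
      rw [Nat.coprime_two_right, Nat.not_odd_iff_even, even_iff_two_dvd] at h1
      have h2 := two_dvd_of_N h1
      have h3 : sym z 2 = 0 := by
        rw [sym_eq_zero]
        intro h4
        have h5 : IsUnit (2 : O) := h4.isUnit_of_dvd' h2 dvd_rfl
        rw [isUnit_iff_N] at h5
        exact absurd h5 (by decide)
      rw [h3, zero_pow (by omega), mul_zero]

lemma T2_int (B : ℤ) {n : ℤ} (h : n.natAbs.Coprime (b2 B)) : T2 B (n : O) = 1 := by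
  unfold T2
  unfold b2 at h
  split_ifs with h1
  · rfl
  · rw [if_neg h1, Nat.coprime_two_right] at h
    have ho : Odd n := Int.natAbs_odd.1 h
    have hc : IsCoprime n 2 := by
      obtain ⟨k, hk⟩ := ho
      exact ⟨1, -k, by rw [hk]; ring⟩
    have h2 : sym (n : O) 2 = 1 := by
      have := sym_int hc
      simpa using this
    have h3 : N (n : O) % 8 = 1 := by
      rw [Vale.Agent.P006.N_intCast]
      have h4 : n.natAbs % 8 = 1 ∨ n.natAbs % 8 = 3 ∨ n.natAbs % 8 = 5 ∨ n.natAbs % 8 = 7 := by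
        have := Nat.odd_iff.1 h
        omega
      rw [Nat.pow_mod]
      rcases h4 with h4 | h4 | h4 | h4 <;> rw [h4]
    have h4 : ZMod.χ₈ (N (n : O) : ZMod 8) = 1 := by
      rw [ZMod.χ₈_nat_eq_if_mod_eight, if_neg (by omega), if_pos (by omega)]
    have h5 : ZMod.χ₄ (N (n : O) : ZMod 4) = 1 := ZMod.χ₄_nat_one_mod_four (by omega)
    rw [h4, h5, h2]
    simp

lemma sym_three_ne {z : O} (hz : Primary z) : sym 3 z ≠ 0 := sym_ne_zero.2 hz.isCoprime_three

lemma star_three : star (3 : O) = 3 := by decide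

theorem X_isU (B : ℤ) (z : O) : IsU (X B z) := by
  unfold X
  apply ((T2_isU B z).mul ((isU_sym _ _).pow _)).mul
  apply prod_induction _ IsU (fun a b => IsU.mul) isU_one
  intro q _
  exact (sx_isU q z).pow _

theorem X_mul (B : ℤ) {z w : O} (hz : z ≠ 0) (hw : w ≠ 0) : X B (z * w) = X B z * X B w := by
  unfold X
  have h1 : ∏ q ∈ SS B, sx q (z * w) ^ padicValInt q B =
      (∏ q ∈ SS B, sx q z ^ padicValInt q B) * ∏ q ∈ SS B, sx q w ^ padicValInt q B := by
    rw [← prod_mul_distrib]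
    apply prod_congr rfl
    intro q _
    rw [sx_mul, mul_pow]
  rw [T2_mul, Vale.Agent.P006.sym_mul_right _ hz hw, mul_pow, h1]
  ring

theorem X_star (B : ℤ) (z : O) : X B (star z) = star (X B z) := by
  unfold X
  have h0 : star (∏ q ∈ SS B, sx q z ^ padicValInt q B) =
      ∏ q ∈ SS B, star (sx q z ^ padicValInt q B) := map_prod (starRingEnd O) _ _
  rw [star_mul', star_mul', T2_star, star_pow, ← sym_star, star_three, h0]
  congr 1
  apply prod_congr rfl
  intro q _
  rw [sx_star, star_pow]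

lemma sym_three_congr {z w : O} (hz : Primary z) (h : (9 : O) ∣ z - w) : sym 3 z = sym 3 w := by
  rw [Vale.Agent.P006.three_eq, sym_mul_left, sym_mul_left, sym_neg_left, sym_neg_left,
    sym_pow_left, sym_pow_left, sym_pow_left, sym_pow_left,
    Vale.Agent.P006.sym_lam_congr hz h, Vale.Agent.P006.sym_om_congr hz h]

/-- the conductor, up to the choice of a divisor -/
noncomputable def Fm (B : ℤ) : ℕ := 72 * RS B

lemma dvd_Fm {B : ℤ} {n : ℕ} (hn : n ∣ Fm B) {z w : O} (h : ((Fm B : ℕ) : O) ∣ z - w) :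
    (n : O) ∣ z - w := by
  refine Dvd.dvd.trans ?_ h
  obtain ⟨c, hc⟩ := hn
  rw [hc]; push_cast; exact dvd_mul_right _ _

theorem X_congr (B : ℤ) {z w : O} (hz : Primary z) (h : ((Fm B : ℕ) : O) ∣ z - w) :
    X B z = X B w := by
  unfold X
  have h8 : ((8 : ℤ) : O) ∣ z - w := by
    have := dvd_Fm (n := 8) (by unfold Fm; exact Dvd.dvd.mul_right (by norm_num) _) h
    simpa using this
  have h9 : (9 : O) ∣ z - w := by
    have := dvd_Fm (n := 9) (by unfold Fm; exact Dvd.dvd.mul_right (by norm_num) _) h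
    simpa using this
  rw [T2_congr B h8, sym_three_congr hz h9]
  congr 1
  apply prod_congr rfl
  intro q hq
  rw [sx_congr (z := z) (w := w)]
  apply dvd_Fm (B := B) _ h
  unfold Fm
  rw [RS_eq]
  exact Dvd.dvd.mul_left (dvd_prod_of_mem _ hq) 72

theorem X_int (B : ℤ) {n : ℤ} (h3 : IsCoprime n 3) (h : n.natAbs.Coprime (b2 B * RS B)) :
    X B (n : O) = 1 := by
  rw [Nat.coprime_mul_iff_right] at h
  unfold X
  have h1 : sym 3 (n : O) = 1 := by
    have := sym_int h3.symm
    simpa using this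
  rw [T2_int B h.1, h1, one_pow, one_mul, one_mul]
  apply prod_eq_one
  intro q hq
  have hqp := (mem_SS hq).1
  rw [sx_int hqp, one_pow]
  intro h1
  have h3 : q ∣ RS B := by rw [RS_eq]; exact dvd_prod_of_mem _ hq
  have h4 : q ∣ n.natAbs := Int.natCast_dvd.1 h1
  exact hqp.one_lt.ne' (Nat.eq_one_of_dvd_coprimes h.2 h4 h3)

theorem X_ne_zero_iff (B : ℤ) {z : O} (hz : Primary z) :
    X B z ≠ 0 ↔ (N z).Coprime (b2 B * RS B) := by
  unfold X
  rw [mul_ne_zero_iff, mul_ne_zero_iff, prod_ne_zero_iff, RS_eq, Nat.coprime_mul_iff_right,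
    Nat.coprime_prod_right_iff]
  have h0 : sym 3 z ^ padicValInt 3 B ≠ 0 := pow_ne_zero _ (sym_three_ne hz)
  have h1 : T2 B z ≠ 0 ↔ (N z).Coprime (b2 B) := by
    rw [Ne, T2_eq_zero_iff, not_not]
  rw [h1]
  constructor
  · rintro ⟨⟨h2, -⟩, h⟩
    refine ⟨h2, fun q hq => ?_⟩
    have hqp := (mem_SS hq).1
    rw [Nat.coprime_comm, Nat.Prime.coprime_iff_not_dvd hqp]
    intro h3
    apply h q hq
    rw [(sx_eq_zero_iff hqp z).2 h3]
    apply zero_pow
    intro h4
    exact (mem_SS hq).2.2 (by rw [h4]; exact dvd_zero _)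
  · rintro ⟨h2, h⟩
    refine ⟨⟨h2, h0⟩, fun q hq => pow_ne_zero _ ?_⟩
    have hqp := (mem_SS hq).1
    intro h3
    rw [sx_eq_zero_iff hqp] at h3
    have h4 := h q hq
    rw [Nat.coprime_comm, Nat.Prime.coprime_iff_not_dvd hqp] at h4
    exact h4 h3

end SX
end P004G
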